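import Crest.Agent.N250.R0.Core
import Crest.Agent.N250.Ec.Tube
import Crest.Agent.N250.Ch.Inst
import Crest.Agent.N250.Wr.Cut
import Crest.Agent.N250.Lp.Lin
import Crest.Agent.N250.Ro.Rot

/-!
# Row 250 (helper84): dictionary of the setting `St` (charts, `nu`, cut-offs, the surface on the tubes)
-/

set_option autoImplicit false
open MeasureTheory Set Filter Topology
open scoped InnerProductSpace ContDiff
open Crest.GeometryTopology.MCF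

noncomputable section

namespace Crest.Agent.N250.R0

open WS Wr B1 Gc Po

theorem on_fR (Q : E ≃ₗᵢ[ℝ] E) (β : Fin 2 → ℂ) : Cj.On (fR Q β) := Ro.on_rf (Cj.on_fQ Q) β

theorem two_le_infty : (2 : WithTop ℕ∞) ≤ ∞ := WithTop.coe_le_coe.2 (le_top : (2 : ℕ∞) ≤ ⊤)

theorem ell_l (c : ℝ) (m : ℤ) : (ell c).l m = |c| * |(m : ℝ)| := rfl

theorem Cst.ε1_pos (k : Cst) : 0 < k.ε1 := by
  have h1 := k.small
  have h2 := k.C_pos
  have h3 := k.ε_pos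
  have h4 : 0 < k.K1 := by linarith [k.K1_ge]
  have : 0 < k.C * (3 / k.K1 + k.ε) := by positivity
  linarith

theorem Cst.small' (k : Cst) : k.C * (3 / k.K1 + k.ε) ≤ k.ε1 := by
  linarith [k.small, k.ε1_pos]

variable {S : Mv}

namespace St

variable (T : St S) {j : Fin T.p} {q : ℝ × ℝ} {a b : ℝ}

include T in
theorem shr : S.IsShr := T.P.shr

include T in
theorem reg : S.Reg := T.P.shr.reg

include T in
theorem sta : S.Static := T.P.shr.st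

theorem R_ge : 10 ≤ T.R := by linarith [T.hR, R_pos T.e]

theorem R_pos : 0 < T.R := by linarith [T.R_ge]

theorem eR_lt (h : -7 < a) : T.e.R < T.R + a := by linarith [T.hR]

theorem eR_lt' (h : T.R - 7 < a) : T.e.R < a := by linarith [T.hR]

theorem eR_lt_R : T.e.R < T.R := by linarith [T.hR]

theorem ℓ_l (m : ℤ) : T.ℓ.l m = T.k.c0 / T.R * |(m : ℝ)| := by
  rw [ell_l, abs_of_pos (div_pos T.k.c0_pos T.R_pos)]

theorem ℓ_sm {c : ℝ} (h : T.k.c0 ≤ c) : T.ℓ.Sm c T.R := fun m => by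
  rw [ℓ_l, div_mul_eq_mul_div]
  have := T.R_pos
  gcongr

/-! ### the chart -/

theorem ψ_eq (hq : T.e.R < q.1) : T.ψ j q = Ec.psi T.e j q :=
  Subtype.ext ((T.hψ j q hq).trans (Ec.psi_val hq).symm)

theorem half_nhds (hq : a < q.1) : ∀ᶠ y : ℝ × ℝ in 𝓝 q, a < y.1 :=
  (Ec.isOpen_half a).mem_nhds hq

theorem ψ_ev (hq : T.e.R < q.1) : T.ψ j =ᶠ[𝓝 q] Ec.psi T.e j :=
  (half_nhds hq).mono fun _ h => T.ψ_eq h

theorem x_ψ (hq : T.e.R < q.1) : T.G.M.x (T.ψ j q) = pX (T.e.Q j) (T.e.r j) q := T.hψ j q hq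

theorem ca_ψ (hq : T.e.R < q.1) : ContinuousAt (T.ψ j) q :=
  (Ec.ca_psi hq).congr (T.ψ_ev hq).symm

theorem pm_ψ (j : Fin T.p) : Ec.Pm T.G.M {q : ℝ × ℝ | T.e.R < q.1} (T.ψ j) where
  isOpen := Ec.isOpen_half _
  cont _ h := (T.ca_ψ h).continuousWithinAt
  sm := (Ec.pm_psi T.e j T.reg).sm.congr fun _ h => congrArg _ (T.ψ_eq h)

theorem ψ_per (ha : T.e.R < a) (θ : ℝ) : T.ψ j (a, θ + 2 * Real.pi) = T.ψ j (a, θ) := by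
  rw [T.ψ_eq ha, T.ψ_eq ha]; exact Ec.per_psi T.e j a θ

theorem lo_ψ (j : Fin T.p) (ha : T.e.R < a) : Ec.Lo T.G.M fun θ => T.ψ j (a, θ) :=
  (T.pm_ψ j).lo (fun _ => ha) (T.ψ_per ha)

theorem pl (hq : T.e.R < q.1) : Lp.Pl T.G (T.ψ j) (T.e.Q j) (T.e.r j) q where
  cont := (half_nhds hq).mono fun _ h => T.ca_ψ h
  sm := (Ec.cd_r hq).of_le two_le_infty
  pos := Ec.r_pos T.e j hq
  eq := (half_nhds hq).mono fun _ h => T.x_ψ h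

theorem pm (hq : T.e.R < q.1) : Cj.Pm T.G (T.ψ j) q := (T.pl hq).pm

theorem xi_ψ (hq : T.e.R < q.1) : xi T.e j (T.ψ j q) = q.1 := by rw [T.ψ_eq hq, Ec.xi_psi hq]

theorem r2_ψ (hq : T.e.R < q.1) : r2 T.e j (T.ψ j q) = T.e.r j q ^ 2 := by
  rw [T.ψ_eq hq, Ec.r2_psi hq]

theorem wv_ψ (hq : T.e.R < q.1) : wv T.e j (T.ψ j q) = fr (T.e.Q j) q.2 0 (T.e.r j q) 0 := by
  rw [T.ψ_eq hq, Ec.wv_psi hq]

theorem ψ_tube (hq : T.e.R < q.1) (ha : a < q.1) : ((T.ψ j q : E), (0 : ℝ)) ∈ tube T.e j a := by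
  rw [T.ψ_eq hq]; exact Ec.psi_tube hq ha

theorem norm_ψ_sq (hq : T.e.R < q.1) : ‖(T.ψ j q : E)‖ ^ 2 = q.1 ^ 2 + T.e.r j q ^ 2 := by
  rw [T.ψ_eq hq, Ec.norm_psi_sq hq]

theorem cr_fst (p : S.sl 0) : (EC.cr T.G (T.e.Q j) p).1 = xi T.e j p := EC.cr_fst p

/-- periodic functions see `cr ∘ ψ` as the identity -/
theorem cr_ψ {V : Type} {g : ℝ × ℝ → V} (hg : Per g) (hq : T.e.R < q.1) :
    g (EC.cr T.G (T.e.Q j) (T.ψ j q)) = g q := by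
  rw [T.ψ_eq hq]; exact Ec.crd_psi hg hq

theorem ψ_cr {p : S.sl 0} (hp : ((p : E), (0 : ℝ)) ∈ tube T.e j T.e.R) :
    T.ψ j (EC.cr T.G (T.e.Q j) p) = p := by
  rw [T.ψ_eq (by rw [T.cr_fst]; exact hp.1)]; exact Ec.psi_crd T.sta p hp

theorem exists_ψ (ha : T.e.R ≤ a) {p : S.sl 0} (hp : ((p : E), (0 : ℝ)) ∈ tube T.e j a) :
    ∃ q : ℝ × ℝ, a < q.1 ∧ q.2 ∈ Ioc (-Real.pi) Real.pi ∧ T.ψ j q = p := by
  obtain ⟨q, h1, h2, h3⟩ := Ec.exists_psi T.sta ha p hp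
  exact ⟨q, h1, h2, (T.ψ_eq (ha.trans_lt h1)).trans h3⟩

theorem injOn_ψ {I : Set ℝ} (hI : I ⊆ Ioi T.e.R) : InjOn (T.ψ j) (strip I) := fun x hx y hy h =>
  Ec.injOn_psi hI hx hy (by rwa [← T.ψ_eq (hI hx.1), ← T.ψ_eq (hI hy.1)])

/-- every point is in the core or on a tube -/
theorem off_or_ψ (ha : T.e.R < b) (hb : b < a) (p : S.sl 0) :
    (∀ j, ((p : E), (0 : ℝ)) ∈ Off T.e j a) ∨ ∃ j, ∃ q : ℝ × ℝ, b < q.1 ∧ T.ψ j q = p := by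
  by_cases h : ∀ j, ((p : E), (0 : ℝ)) ∈ Off T.e j a
  · exact Or.inl h
  · obtain ⟨j, hj⟩ := not_forall.1 h
    obtain ⟨q, h1, -, h2⟩ := T.exists_ψ ha.le
      ((tube_or_off' T.sta (ha.trans hb) hb p.2 j).resolve_right hj)
    exact Or.inr ⟨j, q, h1, h2⟩

/-- pull-backs of smooth functions -/
theorem cd_ψ (f : T.G.SmC) (hq : T.e.R < q.1) : ContDiffAt ℝ ∞ (fun y => f.1 (T.ψ j y)) q :=
  (T.pm_ψ j).cdAt f.2 hq

theorem cd_ψR (f : T.G.R) (hq : T.e.R < q.1) : ContDiffAt ℝ ∞ (fun y => f.1 (T.ψ j y)) q :=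
  (T.pm_ψ j).cdAt f.2 hq

/-! ### `rS`, `vS`, `nu` -/

theorem r_gt (hq : T.e.R < q.1) : 1 < T.e.r j q := (T.e.near j q hq).1

theorem r_lt (hq : T.e.R < q.1) : T.e.r j q < 2 := (T.e.near j q hq).2

theorem r_pos (hq : T.e.R < q.1) : 0 < T.e.r j q := Ec.r_pos T.e j hq

theorem rS_ne (hq : T.e.R < q.1) : T.rS j q ≠ 0 := Complex.ofReal_ne_zero.2 (T.r_pos hq).ne'

theorem norm_rS (hq : T.e.R < q.1) : ‖T.rS j q‖ = T.e.r j q := by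
  rw [rS, Complex.norm_real, Real.norm_of_nonneg (T.r_pos hq).le]

theorem cd_rS (hq : T.e.R < q.1) : ContDiffAt ℝ ∞ (T.rS j) q := Lp.cd_ofReal (Ec.cd_r hq)

theorem per_rS (j : Fin T.p) : Per (T.rS j) := fun s θ => congrArg Complex.ofReal (T.e.per j s θ)

theorem vS_eq (j : Fin T.p) : T.vS j = Lp.vS (T.e.r j) := rfl

theorem vS_real (j : Fin T.p) (q : ℝ × ℝ) : T.vS j q = ((T.e.r j q ^ 2 / 2 : ℝ) : ℂ) := by
  simp [vS, rS]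

theorem cd_vS (hq : T.e.R < q.1) : ContDiffAt ℝ ∞ (T.vS j) q := ((T.cd_rS hq).pow 2).div_const 2

theorem per_vS (j : Fin T.p) : Per (T.vS j) := fun s θ => by rw [vS, vS, T.per_rS j s θ]

theorem ok_of {g : ℝ × ℝ → ℂ} {I : Set ℝ} (hI : I ⊆ Ioi a)
    (h : ∀ q : ℝ × ℝ, a < q.1 → ContDiffAt ℝ ∞ g q) (hp : Per g) : EC.Ok I g :=
  ⟨fun q hq => (h q (hI hq.1)).contDiffWithinAt, hp⟩

theorem ok_rS {I : Set ℝ} (hI : I ⊆ Ioi T.e.R) : EC.Ok I (T.rS j) :=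
  ok_of hI (fun _ => T.cd_rS) (T.per_rS j)

theorem ok_vS {I : Set ℝ} (hI : I ⊆ Ioi T.e.R) : EC.Ok I (T.vS j) :=
  ok_of hI (fun _ => T.cd_vS) (T.per_vS j)

/-- the real version of `nu` -/
def nuR (j : Fin T.p) (q : ℝ × ℝ) : ℝ := nw T.e j (pX (T.e.Q j) (T.e.r j) q, 0) / T.e.r j q

theorem nu_real (j : Fin T.p) (q : ℝ × ℝ) : T.nu j q = T.nuR j q := rfl

theorem nuR_ψ (hq : T.e.R < q.1) : T.nuR j q = nw T.e j (T.ψ j q, 0) / T.e.r j q := by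
  rw [nuR, T.hψ j q hq]

theorem nuR_eq (hq : T.e.R < q.1) :
    T.nuR j q = ⟪S.n (T.ψ j q, 0), fr (T.e.Q j) q.2 0 1 0⟫_ℝ := by
  rw [T.nuR_ψ hq, nw, T.wv_ψ hq, div_eq_iff (T.r_pos hq).ne', mul_comm, ← real_inner_smul_right,
    smul_fr]
  simp

theorem nu_nom (hq : T.e.R < q.1) : T.nu j q = Lp.nom T.G (T.ψ j) (T.e.Q j) q := by
  rw [Lp.nom_eq, nu_real, T.nuR_eq hq]; rfl

theorem nu_ev (hq : T.e.R < q.1) : T.nu j =ᶠ[𝓝 q] Lp.nom T.G (T.ψ j) (T.e.Q j) :=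
  (half_nhds hq).mono fun _ h => T.nu_nom h

theorem nu_ne (hq : T.e.R < q.1) : T.nu j q ≠ 0 := T.nu_nom hq ▸ (T.pl hq).nom_ne

theorem nuR_ne (hq : T.e.R < q.1) : T.nuR j q ≠ 0 := Complex.ofReal_ne_zero.1 (T.nu_ne hq)

theorem tau_eq (hq : T.e.R < q.1) :
    Lp.tau T.G (T.ψ j) (T.e.Q j) (T.e.r j) q = T.rS j q / T.nu j q := by
  rw [T.nu_nom hq]; rfl

theorem per_nuR (j : Fin T.p) : Per (T.nuR j) := fun s θ => by
  rw [nuR, nuR, Ec.per_pX (Ec.per_r T.e j) s θ, T.e.per j s θ]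

theorem per_nu (j : Fin T.p) : Per (T.nu j) := fun s θ => congrArg Complex.ofReal (T.per_nuR j s θ)

theorem cd_nuR (hq : T.e.R < q.1) : ContDiffAt ℝ ∞ (T.nuR j) q := by
  have h := (T.cd_ψR (j := j) (mkR T.reg _ (sm_nw (e := T.e) T.reg j)) hq).div (Ec.cd_r (j := j) hq)
    (T.r_pos hq).ne'
  exact h.congr_of_eventuallyEq ((half_nhds hq).mono fun _ hy => T.nuR_ψ hy)

theorem cd_nu (hq : T.e.R < q.1) : ContDiffAt ℝ ∞ (T.nu j) q := Lp.cd_ofReal (T.cd_nuR hq)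

theorem ok_nu {I : Set ℝ} (hI : I ⊆ Ioi T.e.R) : EC.Ok I (T.nu j) :=
  ok_of hI (fun _ => T.cd_nu) (T.per_nu j)

theorem cd_nu_inv (hq : T.e.R < q.1) : ContDiffAt ℝ ∞ (fun y => (T.nu j y)⁻¹) q :=
  (T.cd_nu hq).inv (T.nu_ne hq)

theorem ok_nu_inv {I : Set ℝ} (hI : I ⊆ Ioi T.e.R) : EC.Ok I fun y => (T.nu j y)⁻¹ :=
  ok_of hI (fun _ => T.cd_nu_inv) fun s θ => by simp only [T.per_nu j s θ]

theorem abs_nuR_le (hq : T.e.R < q.1) : |T.nuR j q| ≤ 1 := by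
  rw [T.nuR_eq hq]
  refine (abs_real_inner_le_norm _ _).trans ?_
  have h1 : ‖fr (T.e.Q j) q.2 0 1 0‖ = 1 := by
    have := inner_fr (Q := T.e.Q j) (θ := q.2) 0 1 0 0 1 0
    rw [real_inner_self_eq_norm_sq] at this
    nlinarith [norm_nonneg (fr (T.e.Q j) q.2 0 1 0)]
  rw [h1, T.reg.norm_n (T.ψ j q).2, one_mul]

theorem abs_nuR_ge (hq : T.R - 6 < q.1) : 1 / 4 ≤ |T.nuR j q| := by
  have hq' : T.e.R < q.1 := T.eR_lt' (by linarith)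
  have h := T.nu_ge j _ (T.ψ_tube (j := j) hq' hq)
  rw [T.nuR_ψ hq', abs_div, abs_of_pos (T.r_pos hq'), le_div_iff₀ (T.r_pos hq')]
  change _ ≤ |⟪S.n (T.ψ j q, 0), wv T.e j (T.ψ j q)⟫_ℝ|
  linarith [T.r_lt (j := j) hq']

theorem norm_nu (j : Fin T.p) (q : ℝ × ℝ) : ‖T.nu j q‖ = |T.nuR j q| := Complex.norm_real _

theorem norm_nu_le (hq : T.e.R < q.1) : ‖T.nu j q‖ ≤ 1 := T.norm_nu j q ▸ T.abs_nuR_le hq

theorem norm_nu_ge (hq : T.R - 6 < q.1) : 1 / 4 ≤ ‖T.nu j q‖ := T.norm_nu j q ▸ T.abs_nuR_ge hq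

theorem pd_of {g : ℝ × ℝ → ℂ} (h : ∀ θ, ContDiffAt ℝ ∞ g (a, θ))
    (hp : ∀ θ, g (a, θ + 2 * Real.pi) = g (a, θ)) : Ec.Pd fun θ => g (a, θ) :=
  ⟨contDiff_iff_contDiffAt.2 fun θ => (h θ).comp θ (contDiffAt_const.prodMk contDiffAt_id), hp⟩

theorem pd_rS (ha : T.e.R < a) : Ec.Pd fun θ => T.rS j (a, θ) :=
  pd_of (fun _ => T.cd_rS ha) (T.per_rS j a)

theorem pd_vS (ha : T.e.R < a) : Ec.Pd fun θ => T.vS j (a, θ) :=
  pd_of (fun _ => T.cd_vS ha) (T.per_vS j a)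

theorem pd_nu (ha : T.e.R < a) : Ec.Pd fun θ => T.nu j (a, θ) :=
  pd_of (fun _ => T.cd_nu ha) (T.per_nu j a)

theorem syn_b0 (j : Fin T.p) (θ : ℝ) : Wi.syn (T.b0 j) θ = T.vS j (T.R, θ) - 1 :=
  ((T.pd_vS T.eR_lt_R).sub (Ec.Pd.const 1)).syn_four 2 θ

/-! ### `rW`, `vW` -/

theorem cd_rW (w : T.G.SmC) (hq : T.e.R < q.1) : ContDiffAt ℝ ∞ (T.rW j w) q :=
  ((T.cd_rS hq).add ((T.cd_ψ w hq).mul (T.cd_nu_inv hq))).congr_of_eventuallyEq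
    (.of_forall fun y => by rw [rW, div_eq_mul_inv])

theorem cd_vW (w : T.G.SmC) (hq : T.e.R < q.1) : ContDiffAt ℝ ∞ (T.vW j w) q :=
  ((T.cd_rW w hq).pow 2).div_const 2

theorem rW_per (w : T.G.SmC) (ha : T.e.R < a) (θ : ℝ) :
    T.rW j w (a, θ + 2 * Real.pi) = T.rW j w (a, θ) := by
  rw [rW, rW, T.ψ_per ha, T.per_rS j, T.per_nu j]

theorem vW_per (w : T.G.SmC) (ha : T.e.R < a) (θ : ℝ) :
    T.vW j w (a, θ + 2 * Real.pi) = T.vW j w (a, θ) := by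
  rw [vW, vW, T.rW_per w ha]

theorem pd_vW (w : T.G.SmC) (ha : T.e.R < a) : Ec.Pd fun θ => T.vW j w (a, θ) :=
  pd_of (fun _ => T.cd_vW w ha) (T.vW_per w ha)

theorem rW_zero (j : Fin T.p) : T.rW j 0 = T.rS j := funext fun q => by
  rw [rW]; change _ + 0 / _ = _; rw [zero_div, add_zero]

theorem vW_zero (j : Fin T.p) : T.vW j 0 = T.vS j := funext fun q => by rw [vW, rW_zero]; rfl

theorem vW_sub (j : Fin T.p) (w : T.G.SmC) (q : ℝ × ℝ) : T.vW j w q - T.vS j q =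
    T.rS j q / T.nu j q * w.1 (T.ψ j q) + (2 * T.nu j q ^ 2)⁻¹ * w.1 (T.ψ j q) ^ 2 := by
  rw [vW, rW, vS]; ring

theorem norm_rW_sub (w : T.G.SmC) (hq : T.R - 6 < q.1) :
    ‖T.rW j w q - T.rS j q‖ ≤ 4 * ‖w.1 (T.ψ j q)‖ := by
  have h := T.norm_nu_ge (j := j) hq
  rw [rW, add_sub_cancel_left, norm_div, div_le_iff₀ (by linarith)]
  nlinarith [norm_nonneg (w.1 (T.ψ j q))]

theorem re_rW_ge (w : T.G.SmC) (hq : T.R - 6 < q.1) (hw : ‖w.1 (T.ψ j q)‖ ≤ 1 / 8) :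
    1 / 2 ≤ (T.rW j w q).re := by
  have h1 := (Complex.abs_re_le_norm _).trans (T.norm_rW_sub (j := j) w hq)
  have h2 := T.r_gt (j := j) (T.eR_lt' (a := q.1) (by linarith))
  rw [Complex.sub_re, rS, Complex.ofReal_re] at h1
  linarith [(abs_le.1 h1).1]

theorem rW_ne (w : T.G.SmC) (hq : T.R - 6 < q.1) (hw : ‖w.1 (T.ψ j q)‖ ≤ 1 / 8) :
    T.rW j w q ≠ 0 := fun h => by
  have := T.re_rW_ge w hq hw
  rw [h, Complex.zero_re] at this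
  linarith

/-! ### cut-offs -/

theorem cu_eq (j : Fin T.p) (a b : ℝ) : T.cu j a b = T.P.chiR j (T.R + a) (T.R + b) := rfl

theorem ze_eq (a b : ℝ) : T.ze a b = T.P.zetaR (T.R + a) (T.R + b) := rfl

theorem cu_apply (j : Fin T.p) (a b : ℝ) (p : S.sl 0) :
    (T.cu j a b).1 p = chi T.e j (T.R + a) (T.R + b) p := rfl

theorem ze_apply (a b : ℝ) (p : S.sl 0) : (T.ze a b).1 p = zeta T.e (T.R + a) (T.R + b) p := rfl

theorem ζ_eq : T.G.ζ = T.ze 1 2 := by rw [ze_eq, ← T.ha', ← T.hb']; rfl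

theorem cu_ψ (a b : ℝ) (hq : T.e.R < q.1) :
    (T.cu j a b).1 (T.ψ j q) = st (T.R + a) (T.R + b) q.1 := by
  rw [cu_apply, T.ψ_eq hq, Ec.chi_psi hq]

theorem cu_ψ_ne {i : Fin T.p} (hi : i ≠ j) (ha : -7 < a) (hab : a < b) (hq : T.e.R < q.1) :
    (T.cu i a b).1 (T.ψ j q) = 0 := by
  rw [cu_apply, T.ψ_eq hq, Ec.chi_psi_ne T.sta hi (T.eR_lt ha) (by linarith) hq]

theorem ze_ψ (ha : -7 < a) (hab : a < b) (hq : T.e.R < q.1) :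
    (T.ze a b).1 (T.ψ j q) = 1 - st (T.R + a) (T.R + b) q.1 := by
  rw [ze_apply, T.ψ_eq hq, Ec.zeta_psi T.sta (T.eR_lt ha) (by linarith) hq]

theorem cu_ψ_one (ha : -7 < a) (hab : a < b) (hq : T.R + b ≤ q.1) : (T.cu j a b).1 (T.ψ j q) = 1 := by
  rw [T.cu_ψ a b (T.eR_lt' (by linarith)), st_one (by linarith) hq]

theorem cu_ψ_zero (hab : a < b) (hq : T.e.R < q.1) (h : q.1 ≤ T.R + a) :
    (T.cu j a b).1 (T.ψ j q) = 0 := by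
  rw [T.cu_ψ a b hq, st_zero (by linarith) h]

theorem ze_ψ_zero (ha : -7 < a) (hab : a < b) (hq : T.R + b ≤ q.1) :
    (T.ze a b).1 (T.ψ j q) = 0 := by
  rw [T.ze_ψ ha hab (T.eR_lt' (by linarith)), st_one (by linarith) hq, sub_self]

theorem ze_ψ_one (ha : -7 < a) (hab : a < b) (hq : T.e.R < q.1) (h : q.1 ≤ T.R + a) :
    (T.ze a b).1 (T.ψ j q) = 1 := by
  rw [T.ze_ψ ha hab hq, st_zero (by linarith) h, sub_zero]

theorem cu_off (hab : a < b) {p : S.sl 0} (hp : ((p : E), (0 : ℝ)) ∈ Off T.e j (T.R + a)) :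
    (T.cu j a b).1 p = 0 := chi_zero (p := ((p : E), (0 : ℝ))) (by linarith) hp

theorem ze_off (hab : a < b) {p : S.sl 0} (hp : ∀ j, ((p : E), (0 : ℝ)) ∈ Off T.e j (T.R + a)) :
    (T.ze a b).1 p = 1 := zeta_one (p := ((p : E), (0 : ℝ))) (by linarith) hp

theorem cu_nonneg (j : Fin T.p) (a b : ℝ) (p : S.sl 0) : 0 ≤ (T.cu j a b).1 p := chi_nonneg _ _ _ _

theorem cu_le_one (j : Fin T.p) (a b : ℝ) (p : S.sl 0) : (T.cu j a b).1 p ≤ 1 := chi_le_one _ _ _ _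

theorem ze_nonneg (a b : ℝ) (p : S.sl 0) : 0 ≤ (T.ze a b).1 p := zeta_nonneg _ _ _

theorem ze_le_one (a b : ℝ) (p : S.sl 0) : (T.ze a b).1 p ≤ 1 := zeta_le_one _ _ _

theorem ze_eq_sub (ha : -7 < a) (hab : a < b) : T.ze a b = 1 - ∑ j, T.cu j a b :=
  T.P.zetaR_eq (T.eR_lt ha) (by linarith)

/-- where an inner cut-off does not vanish, an outer cut-off is `1` -/
theorem ze_one_of_ne {a' b' : ℝ} (ha : -7 < a) (hab : a < b) (hb : b ≤ a') (h' : a' < b') {p : S.sl 0}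
    (hp : (T.ze a b).1 p ≠ 0) : (T.ze a' b').1 p = 1 :=
  zeta_one_of_ne (p := ((p : E), (0 : ℝ))) T.sta (T.eR_lt ha) (by linarith) (by linarith)
    (by linarith) p.2 hp

theorem ζ_one_of_ne (ha : -7 < a) (hab : a < b) (hb : b ≤ 1) {p : S.sl 0}
    (hp : (T.ze a b).1 p ≠ 0) : T.G.ζ.1 p = 1 := by
  rw [ζ_eq]; exact T.ze_one_of_ne ha hab hb one_lt_two hp

theorem ζ_ψ (hq : T.e.R < q.1) (h : q.1 ≤ T.R + 1) : T.G.ζ.1 (T.ψ j q) = 1 := by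
  rw [ζ_eq]; exact T.ze_ψ_one (by norm_num) one_lt_two hq h

theorem tube_of_cu (ha : -7 < a) (hab : a < b) {p : S.sl 0} (hp : (T.cu j a b).1 p ≠ 0) :
    ((p : E), (0 : ℝ)) ∈ tube T.e j (T.R + a) :=
  tube_of_chi (p := ((p : E), (0 : ℝ))) T.sta (T.eR_lt ha) (by linarith : T.R + a < T.R + b) p.2 hp

theorem sy_ze (ha : -7 < a) (hab : a < b) : T.G.Sy 0 (T.ze a b) :=
  T.P.sy_zetaR (T.eR_lt ha) (by linarith)

theorem sy_cu (ha : -7 < a) (hab : a < b) (k : ℤ) : T.G.Sy k (T.cu j a b) :=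
  T.P.sy_chiR (T.eR_lt ha) (by linarith) j k

theorem cs_ze_cu {a' b' : ℝ} (ha : -7 < a) (hab : a < b) (ha' : -7 < a') (hab' : a' < b') :
    HasCompactSupport (T.ze a b * T.cu j a' b').1 :=
  T.P.cs_zetaR_chiR (T.eR_lt ha) (by linarith) (T.eR_lt ha') (by linarith) j

theorem ρ_ψ (hq : T.R - 5 < q.1) : T.G.ρ.1 (T.ψ j q) = 1 := by
  have hq' : T.e.R < q.1 := T.eR_lt' (by linarith)
  rw [Prm.geo_ρ, T.ψ_eq hq', Ec.rho_psi hq' (by rw [T.ha]; linarith)]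

theorem ι_ψ (hq : T.R - 5 < q.1) : T.G.ι.1 (T.ψ j q) = 1 := by
  have := T.ρ_ψ (j := j) hq
  rw [Prm.geo_ρ] at this
  rw [Prm.geo_ι, this, inv_one]

theorem κ_ψ (hq : T.e.R < q.1) : (T.κ j).1 (T.ψ j q) =
    st (T.R + 1 / 20) (T.R + 1 / 10) q.1 * (1 - st (T.R + 2 / 3) (T.R + 9 / 10) q.1) := by
  rw [← T.cu_ψ _ _ hq, ← T.cu_ψ _ _ hq]; rfl

theorem κ_ψ_one (h1 : T.R + 1 / 10 ≤ q.1) (h2 : q.1 ≤ T.R + 2 / 3) : (T.κ j).1 (T.ψ j q) = 1 := by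
  rw [T.κ_ψ (T.eR_lt' (by linarith)), st_one (by linarith) h1, st_zero (by linarith) h2]; ring

theorem κ_ψ_lo (hq : T.e.R < q.1) (h : q.1 ≤ T.R + 1 / 20) : (T.κ j).1 (T.ψ j q) = 0 := by
  rw [T.κ_ψ hq, st_zero (by linarith) h, zero_mul]

theorem κ_ψ_hi (h : T.R + 9 / 10 ≤ q.1) : (T.κ j).1 (T.ψ j q) = 0 := by
  rw [T.κ_ψ (T.eR_lt' (by linarith)), st_one (a := T.R + 2 / 3) (by linarith) h]; ring

theorem κ_ψ_ne {i : Fin T.p} (hi : i ≠ j) (hq : T.e.R < q.1) : (T.κ i).1 (T.ψ j q) = 0 := by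
  change (T.cu i _ _).1 _ * _ = 0
  rw [T.cu_ψ_ne hi (by norm_num) (by norm_num) hq, zero_mul]

theorem κ_off {p : S.sl 0} (hp : ((p : E), (0 : ℝ)) ∈ Off T.e j (T.R + 1 / 20)) :
    (T.κ j).1 p = 0 := by
  change (T.cu j _ _).1 _ * _ = 0
  rw [T.cu_off (by norm_num) hp, zero_mul]

/-- the zone of the lift -/
abbrev Kκ (j : Fin T.p) : Set (S.sl 0) := EC.Kc T.P j (T.R + 1 / 20) (T.R + 9 / 10)

/-- the open strip `R < x < R + 1` -/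
abbrev IU : Set ℝ := Ioo T.R (T.R + 1)

theorem IU_sub : T.IU ⊆ Ioi T.e.R := fun _ h => T.eR_lt_R.trans h.1

theorem zn_κ (j : Fin T.p) : EC.Zn T.G (T.e.Q j) T.IU (T.Kκ j) :=
  EC.zn_Kc (T.eR_lt (by norm_num)) isOpen_Ioo fun _ h => ⟨by linarith [h.1], by linarith [h.2]⟩

theorem sp_κ (j : Fin T.p) : EC.Sp (T.Kκ j) (T.G.oR (T.κ j)) :=
  EC.sp_bump (T.eR_lt (by norm_num)) (by linarith) (by linarith)

theorem compact_Kκ (j : Fin T.p) : IsCompact (T.Kκ j) := EC.compact_Kc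

theorem sp_uE (j : Fin T.p) (v : ℝ × ℝ → ℂ) : EC.Sp (T.Kκ j) (T.uE j v) := (T.sp_κ j).lift _

theorem uE_apply {v : ℝ × ℝ → ℂ} (hv : EC.Ok T.IU (T.gE j v)) (p : S.sl 0) :
    (T.uE j v).1 p = (T.κ j).1 p * T.gE j v (EC.cr T.G (T.e.Q j) p) :=
  (T.zn_κ j).lift_apply (T.sp_κ j) hv p

theorem uE_ψ {v : ℝ × ℝ → ℂ} (hv : EC.Ok T.IU (T.gE j v)) (hq : T.e.R < q.1) :
    (T.uE j v).1 (T.ψ j q) = (T.κ j).1 (T.ψ j q) * T.gE j v q := by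
  rw [T.uE_apply hv, T.cr_ψ hv.per hq]

theorem ψ_notMem_Kκ {i : Fin T.p} (hi : i ≠ j) (hq : T.e.R < q.1) : T.ψ j q ∉ T.Kκ i := fun h =>
  tube_disj hi (T.ψ_tube hq hq) (EC.Kh_tube (T.eR_lt (by norm_num)) h.1)

theorem ψ_mem_Kκ (hq : T.e.R < q.1) :
    T.ψ j q ∈ T.Kκ j ↔ q.1 ∈ Icc (T.R + 1 / 20) (T.R + 9 / 10) := by
  have h1 := T.r_gt (j := j) hq
  have h2 := T.r_lt (j := j) hq
  change (_ ≤ xi T.e j (T.ψ j q) ∧ r2 T.e j (T.ψ j q) ≤ 9) ∧ xi T.e j (T.ψ j q) ≤ _ ↔ _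
  rw [T.xi_ψ hq, T.r2_ψ hq]
  exact ⟨fun h => ⟨h.1.1, h.2⟩, fun h => ⟨⟨h.1, by nlinarith⟩, h.2⟩⟩

theorem off_notMem_Kκ {p : S.sl 0} (hp : ((p : E), (0 : ℝ)) ∈ Off T.e j (T.R + 1 / 20)) :
    p ∉ T.Kκ j := fun h => hp.elim (fun h' => absurd h.1.1 (not_le.2 h')) fun h' =>
  absurd h.1.2 (not_le.2 h')

/-- the graph function of `vS` is zero -/
theorem gE_vS (hq : T.e.R < q.1) : T.gE j (T.vS j) q = 0 := by
  have h : (2 * T.vS j q) = ((T.e.r j q ^ 2 : ℝ) : ℂ) := by rw [vS_real]; push_cast; ring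
  rw [gE, h, show (1 / 2 : ℂ) = ((1 / 2 : ℝ) : ℂ) by norm_num, ← Complex.ofReal_cpow (sq_nonneg _),
    ← Real.sqrt_eq_rpow, Real.sqrt_sq (T.r_pos hq).le, rS, sub_self, zero_mul]

/-! ### `Z` and the surface on the tubes -/

theorem Z_ψ (hq : T.R - 5 < q.1) (c : Fin 3) :
    ((T.Z c).1 (T.ψ j q) : ℂ) = Cj.frC (Cj.fQ (T.e.Q j)) q.2 0 (T.nu j q)⁻¹ 0 c := by
  have hq' : T.e.R < q.1 := T.eR_lt' (by linarith)
  have h1 : (T.nu j q)⁻¹ = (((T.nuR j q)⁻¹ : ℝ) : ℂ) := by rw [nu_real, Complex.ofReal_inv]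
  have h2 := congrFun (Cj.cx_fr (T.e.Q j) q.2 0 (T.nuR j q)⁻¹ 0) c
  rw [Complex.ofReal_zero] at h2
  rw [h1, ← h2, Cj.cx, T.Zr j _ (T.ψ_tube hq' hq) c, T.nuR_ψ hq', inv_div, nw]
  congr 1
  have h3 := smul_fr (Q := T.e.Q j) (θ := q.2)
    (⟪S.n (T.ψ j q, 0), wv T.e j (T.ψ j q)⟫_ℝ)⁻¹ 0 (T.e.r j q) 0
  rw [mul_zero, ← T.wv_ψ hq', ← div_eq_inv_mul] at h3
  rw [← h3, div_eq_inv_mul]; rfl

theorem xC_ψ (hq : T.e.R < q.1) (c : Fin 3) :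
    (T.G.SC.x c).1 (T.ψ j q) = Cj.frC (Cj.fQ (T.e.Q j)) q.2 q.1 (T.rS j q) 0 c :=
  congrFun (T.pl hq).pb_x.self_of_nhds c

theorem xR_ψ (hq : T.e.R < q.1) (c : Fin 3) :
    ((T.G.S.x c).1 (T.ψ j q) : ℂ) = Cj.frC (Cj.fQ (T.e.Q j)) q.2 q.1 (T.rS j q) 0 c := T.xC_ψ hq c

end St

namespace Fa

variable {T : St S} (F : Fa T) {j : Fin T.p} {q : ℝ × ℝ}

theorem cs_φ (k : F.I) : HasCompactSupport (F.φ k).1 := F.grn.cs k

theorem good : F.D.Good where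
  nZ := by rw [← T.Zn]; exact Finset.sum_congr rfl fun _ _ => mul_comm _ _
  symZ := T.Zs
  symZd := T.Zd
  cχ j := by rw [T.ζ_eq]; exact T.cs_ze_cu (by norm_num) (by norm_num) (by norm_num) (by norm_num)
  cφ := F.cs_φ
  symcut := T.sy_ze (by norm_num) (by norm_num)
  cut _ h := T.ζ_one_of_ne (by norm_num) (by norm_num) (by norm_num) h

theorem ψ_notMem (k : F.I) (hq : T.R - 2 < q.1) : T.ψ j q ∉ tsupport (F.φ k).1 := fun h =>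
  (F.supp k _ h).2 j (T.ψ_tube (T.eR_lt' (by linarith)) hq)

theorem φ_ψ (k : F.I) (hq : T.R - 2 < q.1) : (F.φ k).1 (T.ψ j q) = 0 :=
  image_eq_zero_of_notMem_tsupport (F.ψ_notMem k hq)

theorem ph_apply (c : F.I → ℂ) (p : S.sl 0) : (F.D.ph c).1 p = ∑ k, c k * (F.φ k).1 p := by
  rw [← Cj.ev_apply, Nq.Dt.ph, map_sum]; rfl

theorem ph_ψ (c : F.I → ℂ) (hq : T.R - 2 < q.1) : (F.D.ph c).1 (T.ψ j q) = 0 := by
  simp [ph_apply, F.φ_ψ _ hq]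

theorem mv_apply (M : Nq.Mt (Fin T.p)) (w : Fin 3 → T.G.R) (c : Fin 3) (p : S.sl 0) :
    (F.D.mv M w c).1 p = ∑ i, ((T.χr i).1 p : ℂ) * ∑ d, M i c d * (w d).1 p := by
  rw [← Cj.ev_apply, Nq.Dt.mv, map_sum]
  refine Finset.sum_congr rfl fun i _ => ?_
  rw [map_sum, Finset.mul_sum]
  refine Finset.sum_congr rfl fun d _ => ?_
  change M i c d * (((T.χr i).1 p * (w d).1 p : ℝ) : ℂ) = _
  push_cast; ring

theorem mv_ψ (M : Nq.Mt (Fin T.p)) (w : Fin 3 → T.G.R) (c : Fin 3) (hq : T.e.R < q.1) :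
    (F.D.mv M w c).1 (T.ψ j q) =
      (st (T.R + -3 / 2) (T.R + -1) q.1 : ℝ) * ∑ d, M j c d * (w d).1 (T.ψ j q) := by
  rw [mv_apply, Finset.sum_eq_single j (fun i _ hi => by
    rw [T.cu_ψ_ne hi (by norm_num) (by norm_num) hq]; simp) (by simp), T.cu_ψ _ _ hq]

theorem mv_zero (M : Nq.Mt (Fin T.p)) (w : Fin 3 → T.G.R) (c : Fin 3) {p : S.sl 0}
    (hp : ∀ i, (T.χr i).1 p = 0) : (F.D.mv M w c).1 p = 0 := by simp [mv_apply, hp]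

theorem Xh_apply (u : T.G.SmC) (M : Nq.Mt (Fin T.p)) (c : Fin 3) (p : S.sl 0) :
    (F.D.Xh u M c).1 p = (T.G.SC.x c).1 p + ((F.D.mv M T.G.S.x c).1 p +
      u.1 p * (((T.Z c).1 p : ℂ) + (F.D.mv M T.Z c).1 p)) := rfl

/-- off the rotation zone the surface is `x + u Z` -/
theorem Xh_core (u : T.G.SmC) (M : Nq.Mt (Fin T.p)) (c : Fin 3) {p : S.sl 0}
    (hp : ∀ i, (T.χr i).1 p = 0) :
    (F.D.Xh u M c).1 p = ((p : E) c : ℂ) + u.1 p * (T.Z c).1 p := by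
  rw [Xh_apply, F.mv_zero _ _ _ hp, F.mv_zero _ _ _ hp, zero_add, add_zero]; rfl

/-- on the support of the constraints there is no rotation -/
theorem χr_zero {k : F.I} {p : S.sl 0} (hp : p ∈ tsupport (F.φ k).1) (i : Fin T.p) :
    (T.χr i).1 p = 0 := by
  by_contra h
  exact (F.supp k p hp).2 i (tube_mono (by linarith) (T.tube_of_cu (by norm_num) (by norm_num) h))

/-- on the tube the surface is the polar graph of `rW`, moved by the cut-off rotation -/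
theorem Xh_ψ' (u : T.G.SmC) (M : Nq.Mt (Fin T.p)) (c : Fin 3) (hq : T.R - 5 < q.1) :
    (F.D.Xh u M c).1 (T.ψ j q) = Cj.pC (Cj.fQ (T.e.Q j)) (T.rW j u) q c +
      (st (T.R + -3 / 2) (T.R + -1) q.1 : ℝ) *
        ∑ d, M j c d * Cj.pC (Cj.fQ (T.e.Q j)) (T.rW j u) q d := by
  have hq' : T.e.R < q.1 := T.eR_lt' (by linarith)
  have h (d : Fin 3) : Cj.pC (Cj.fQ (T.e.Q j)) (T.rW j u) q d =
      (T.G.S.x d).1 (T.ψ j q) + u.1 (T.ψ j q) * (T.Z d).1 (T.ψ j q) := by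
    rw [T.xR_ψ hq', T.Z_ψ hq, Cj.smul_frC, Cj.add_frC, Cj.pC, St.rW, div_eq_mul_inv]
    simp
  rw [Xh_apply, F.mv_ψ _ _ _ hq', F.mv_ψ _ _ _ hq']
  simp only [h, mul_add, Finset.sum_add_distrib, Finset.mul_sum]
  have e : (T.G.SC.x c).1 (T.ψ j q) = (T.G.S.x c).1 (T.ψ j q) := rfl
  rw [e]
  simp only [Fin.sum_univ_three]
  ring

/-- beyond the rotation zone the surface is the polar graph of `rW` in the rotated frame -/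
theorem Xh_ψ (u : T.G.SmC) (β : T.Bt) (hq : T.R - 1 ≤ q.1) :
    Cj.pb (F.D.Xh u (T.TT β)) (T.ψ j) q = Cj.pC (fR (T.e.Q j) fun i => β (j, i)) (T.rW j u) q := by
  funext c
  change (F.D.Xh u (T.TT β) c).1 (T.ψ j q) = _
  rw [F.Xh_ψ' u _ c (by linarith), st_one (by linarith) (by linarith), Complex.ofReal_one, one_mul]
  exact Ro.TT_frC (β := fun i => β (j, i)) (θ := q.2) (Cj.on_fQ (T.e.Q j)) q.1 (T.rW j u q) 0 c

theorem pc_Xh (u : T.G.SmC) (β : T.Bt) (hq : T.R - 1 < q.1) (h0 : T.rW j u q ≠ 0) :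
    Cj.Pc T.G (T.ψ j) (F.D.Xh u (T.TT β)) (fR (T.e.Q j) fun i => β (j, i)) (T.rW j u) (T.vW j u) q where
  toPm := T.pm (T.eR_lt' (by linarith))
  on := on_fR _ _
  smr := (T.cd_rW u (T.eR_lt' (by linarith))).of_le two_le_infty
  ne := h0
  veq := .of_forall fun _ => rfl
  eq := (St.half_nhds hq).mono fun _ h => F.Xh_ψ u β h.le

theorem VV_ψ (β : T.Bt) (hq : T.R - 1 ≤ q.1) (c : Fin 3) : (F.D.VV (T.TT β) c).1 (T.ψ j q) =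
    Cj.frC (fR (T.e.Q j) fun i => β (j, i)) q.2 0 (T.nu j q)⁻¹ 0 c := by
  change ((T.Z c).1 (T.ψ j q) : ℂ) + (F.D.mv (T.TT β) T.Z c).1 (T.ψ j q) = _
  rw [F.mv_ψ _ _ _ (T.eR_lt' (by linarith)), st_one (by linarith) (by linarith), Complex.ofReal_one,
    one_mul]
  simp only [T.Z_ψ (j := j) (q := q) (by linarith)]
  exact Ro.TT_frC (β := fun i => β (j, i)) (θ := q.2) (Cj.on_fQ (T.e.Q j)) 0 (T.nu j q)⁻¹ 0 c

variable {σ : Scale T.G}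

theorem pc_Y (ξ : F.Ξ σ) (hq : T.R - 1 < q.1) (h0 : T.rW j (F.w ξ) q ≠ 0) :
    Cj.Pc T.G (T.ψ j) (F.Y ξ) (fR (T.e.Q j) fun i => ξ.2.2 (j, i)) (T.rW j (F.w ξ))
      (T.vW j (F.w ξ)) q := F.pc_Xh _ _ hq h0

theorem syn_dat (ξ : F.Ξ σ) (j : Fin T.p) (θ : ℝ) :
    Wi.syn (F.dat ξ j) θ = T.vW j (F.w ξ) (T.R, θ) - T.vS j (T.R, θ) :=
  ((T.pd_vW _ T.eR_lt_R).sub (T.pd_vS T.eR_lt_R)).syn_four 2 θ

theorem co_dat (ξ : F.Ξ σ) (j : Fin T.p) (m : ℤ) : Wi.co (F.dat ξ j) m =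
    Ra.fc (fun θ => T.vW j (F.w ξ) (T.R, θ) - T.vS j (T.R, θ)) m :=
  ((T.pd_vW _ T.eR_lt_R).sub (T.pd_vS T.eR_lt_R)).co_four 2 m

theorem isG (ξ : F.Ξ σ) :
    T.G.IsG F.φ (T.G.oR T.G.ι * σ.val ξ.1) ξ.2.1 (F.w ξ) (-F.c ξ) := by
  rw [c, neg_neg]; exact σ.isG F.grn (ξ.1, ξ.2.1)

theorem ρ_LL_w (ξ : F.Ξ σ) : T.G.oR T.G.ρ * T.G.SC.LL (F.w ξ) =
    σ.val ξ.1 - ∑ k, F.c ξ k • T.G.oR (T.G.ρ * F.φ k) := by
  rw [w, σ.ρ_LL_wG F.grn, sub_eq_add_neg, ← Finset.sum_neg_distrib]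
  simp [c]

end Fa

end Crest.Agent.N250.R0

end
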